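import Vale.Agent.P371.Gamma.Defs

/-!
P371: the algebra of one time `t` and one point `x` of the calibration.
-/

open Matrix MeasureTheory Set
open scoped Matrix.Norms.L2Operator ComplexOrder

namespace Vale.Agent.P371.Gamma.Calib

variable {N : ℕ} {G A Z X : Mat N}

/-- `tr (C X C) ≥ 0`. -/
lemma trace_sandwich_nonneg {C X : Mat N} (hC : C.IsHermitian) (hX : X.PosSemidef) :
    0 ≤ (C * X * C).trace.re := by
  have h := hX.conjTranspose_mul_mul_same C
  rw [hC.eq] at h
  exact (Complex.nonneg_iff.1 h.trace_nonneg).1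

/-- The imaginary part `Y` of `Z = -G + iY`. -/
noncomputable def imPart (Z : Mat N) : Mat N := (-(Complex.I / 2)) • (Z - star Z)

lemma imPart_herm (Z : Mat N) : (imPart Z).IsHermitian := by
  simp [IsHermitian, imPart, Matrix.star_eq_conjTranspose]
  module

lemma solvent_eq (h : IsSolvent G A Z X) : Z = -G + Complex.I • imPart Z ∧
    star Z = -G - Complex.I • imPart Z := by
  have e : G = (-(1 / 2 : ℂ)) • (Z + star Z) := by rw [h.add_star, smul_neg, smul_smul]; norm_num
  rw [imPart, smul_smul, mul_neg, ← mul_div_assoc, Complex.I_mul_I, e]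
  constructor <;> module

lemma imPart_eq (h : IsSolvent G A Z X) :
    imPart Z * X + X * imPart Z + Complex.I • (G * X - X * G) = 1 := by
  obtain ⟨e1, e2⟩ := solvent_eq h
  have hl := h.lyap
  generalize imPart Z = Y at e1 e2 ⊢
  rw [e2, e1] at hl
  have : Complex.I • (Y * X + X * Y + Complex.I • (G * X - X * G)) = Complex.I • (1 : Mat N) := by
    rw [← hl]
    simp only [Matrix.add_mul, Matrix.mul_sub, Matrix.neg_mul, Matrix.mul_neg, Matrix.smul_mul,
      Matrix.mul_smul, smul_add, smul_sub, smul_smul, Complex.I_mul_I]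
    module
  exact smul_right_injective (Mat N) Complex.I_ne_zero this

lemma square_eq (h : IsSolvent G A Z X) :
    A = G * G + imPart Z * imPart Z + Complex.I • (imPart Z * G - G * imPart Z) := by
  obtain ⟨e1, e2⟩ := solvent_eq h
  have hA := h.star_mul
  generalize imPart Z = Y at e1 e2 ⊢
  rw [e2, e1] at hA
  rw [← hA]
  simp only [Matrix.sub_mul, Matrix.mul_add, Matrix.neg_mul, Matrix.mul_neg, Matrix.smul_mul,
    Matrix.mul_smul, smul_sub, smul_neg, smul_smul, Complex.I_mul_I]
  module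

/-- `η = Im tr Z = tr X⁻¹ / 2`, and it is the trace of `Y`. -/
lemma eta_eq (h : IsSolvent G A Z X) :
    Z.trace.im = (X⁻¹).trace.re / 2 ∧ (imPart Z).trace.re = Z.trace.im := by
  have hu : IsUnit X.det := (isUnit_iff_isUnit_det X).1 h.pos.isUnit
  have hY : (imPart Z).trace.re = Z.trace.im := by
    simp [imPart, trace_sub, trace_smul, Matrix.star_eq_conjTranspose, trace_conjTranspose,
      Complex.mul_re]
    ring
  refine ⟨?_, hY⟩
  have e := congrArg (fun M => (M * X⁻¹).trace) h.lyap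
  simp only [Matrix.sub_mul, trace_sub, Matrix.mul_assoc, Matrix.smul_mul, one_mul, trace_smul,
    mul_nonsing_inv _ hu, mul_one] at e
  have e2 : (X * (star Z * X⁻¹)).trace = (star Z).trace := by
    rw [trace_mul_comm, Matrix.mul_assoc, nonsing_inv_mul _ hu, mul_one]
  rw [e2, Matrix.star_eq_conjTranspose, trace_conjTranspose] at e
  have := congrArg Complex.im e
  simp at this
  linarith

lemma eta_nonneg (h : IsSolvent G A Z X) : 0 ≤ Z.trace.im := by
  rw [(eta_eq h).1]
  have := (Complex.nonneg_iff.1 h.pos.inv.posSemidef.trace_nonneg).1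
  linarith

/-- `tr X (A - G²) ≤ η / 2`. -/
lemma trace_mul_le (h : IsSolvent G A Z X) :
    (X * (A - G * G)).trace.re ≤ Z.trace.im / 2 := by
  have hu : IsUnit X.det := (isUnit_iff_isUnit_det X).1 h.pos.isUnit
  obtain ⟨hη, hY⟩ := eta_eq h
  set Y := imPart Z with hYdef
  set T := X⁻¹
  have hT : T.IsHermitian := h.pos.1.inv
  have hXT : X * T = 1 := mul_nonsing_inv _ hu
  have hTX : T * X = 1 := nonsing_inv_mul _ hu
  -- trace of the Lyapunov identity against `Y`
  have e1 : (Y * (Y * X + X * Y + Complex.I • (G * X - X * G))).trace = Y.trace := by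
    rw [imPart_eq h, mul_one]
  have c1 : (Y * (Y * X)).trace = (X * (Y * Y)).trace := by rw [← Matrix.mul_assoc, trace_mul_comm]
  have c2 : (Y * (X * Y)).trace = (X * (Y * Y)).trace := by
    rw [trace_mul_comm, Matrix.mul_assoc]
  have c3 : (Y * (G * X)).trace = (X * (Y * G)).trace := by rw [← Matrix.mul_assoc, trace_mul_comm]
  have c4 : (Y * (X * G)).trace = (X * (G * Y)).trace := by
    rw [trace_mul_comm, Matrix.mul_assoc]
  simp only [Matrix.mul_add, Matrix.mul_sub, Matrix.mul_smul, trace_add, trace_sub, trace_smul,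
    c1, c2, c3, c4] at e1
  have e2 : (X * (A - G * G)).trace = Y.trace - (X * (Y * Y)).trace := by
    rw [← e1, square_eq h]
    simp only [Matrix.mul_add, Matrix.mul_sub, Matrix.mul_smul, trace_add,
      trace_sub, trace_smul, ← hYdef]
    ring
  have hC : (Y - (1 / 2 : ℂ) • T).IsHermitian :=
    (imPart_herm Z).sub (by simp [IsHermitian, conjTranspose_smul, hT.eq])
  have q := trace_sandwich_nonneg hC h.pos.posSemidef
  have e3 : ((Y - (1 / 2 : ℂ) • T) * X * (Y - (1 / 2 : ℂ) • T)).trace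
      = (X * (Y * Y)).trace - Y.trace + T.trace / 4 := by
    have a1 : (Y * X * Y).trace = (X * (Y * Y)).trace := by rw [Matrix.mul_assoc]; exact c2
    have a2 : T * X * T = T := by rw [hTX, one_mul]
    have a3 : Y * X * T = Y := by rw [Matrix.mul_assoc, hXT, mul_one]
    have a4 : T * X * Y = Y := by rw [hTX, one_mul]
    simp only [Matrix.sub_mul, Matrix.mul_sub, Matrix.smul_mul, Matrix.mul_smul, trace_sub,
      trace_smul, a1, a2, a3, a4, smul_eq_mul]
    ring
  rw [e3] at q
  rw [e2]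
  simp only [Complex.sub_re, Complex.add_re] at q ⊢
  have : (T.trace / 4).re = T.trace.re / 4 := by simp
  linarith

/-- `tr (Y - r)² = tr (A - G²) + N r² - 2 r η ≥ 0`. -/
lemma excess_nonneg (h : IsSolvent G A Z X) (r : ℝ) :
    0 ≤ (A - G * G).trace.re + N * r ^ 2 - 2 * r * Z.trace.im := by
  obtain ⟨-, hY⟩ := eta_eq h
  set Y := imPart Z with hYdef
  have hC : (Y - (r : ℂ) • 1).IsHermitian :=
    (imPart_herm Z).sub (by simp [IsHermitian, conjTranspose_smul])
  have q := trace_sandwich_nonneg hC (PosSemidef.one (n := Fin N) (R := ℂ))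
  have e : ((Y - (r : ℂ) • 1) * 1 * (Y - (r : ℂ) • 1)).trace
      = (A - G * G).trace + (N : ℂ) * (r : ℂ) ^ 2 - 2 * (r : ℂ) * Y.trace := by
    rw [square_eq h]
    simp only [Matrix.sub_mul, Matrix.mul_sub, Matrix.smul_mul, Matrix.mul_smul, trace_sub,
      trace_smul, trace_add, mul_one, one_mul, trace_one, Fintype.card_fin, smul_eq_mul, ← hYdef,
      trace_mul_comm G Y]
    ring
  rw [e] at q
  simp [Complex.mul_re, sq] at q
  rw [hY] at q
  rw [trace_sub, Complex.sub_re, sq]
  linarith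

/-- The calibration at one time and one point: with `U = √(V/θ + t)`. -/
lemma point_le {Λ V U : Mat N} {t γ : ℝ} (ht : 0 < t) (h1 : 1 / 2 < γ)
    (h : IsSolvent G (Λ + (t : ℂ) • 1) Z X) (hU : U.IsHermitian)
    (hU2 : U * U = ((((γ - 1 / 2) / (γ + 1 / 2) : ℝ)) : ℂ) • V + (t : ℂ) • 1) :
    -((Λ - G * G - V).trace.re / (2 * √t) - (X * (Λ - G * G - V)).trace.re) ≤
      (γ + 1 / 2) / (γ - 1 / 2) *
          (((γ - 1 / 2) / (γ + 1 / 2) * V.trace.re + 2 * N * t) / (2 * √t) - U.trace.re)
        - (1 / (γ - 1 / 2)) *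
          (t * ((N : ℝ) / (2 * √t) - X.trace.re - (Λ - G * G).trace.re / (4 * t * √t))
            + γ * (N * √t + (Λ - G * G).trace.re / (2 * √t) - Z.trace.im)) := by
  set c : ℝ := (γ - 1 / 2) / (γ + 1 / 2) with hc
  have hu : IsUnit X.det := (isUnit_iff_isUnit_det X).1 h.pos.isUnit
  have hm := trace_mul_le h
  obtain ⟨hη, -⟩ := eta_eq h
  set T := X⁻¹
  have hXT : X * T = 1 := mul_nonsing_inv _ hu
  have hTX : T * X = 1 := nonsing_inv_mul _ hu
  have hC : ((1 / 2 : ℂ) • T - U).IsHermitian :=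
    (by simp [IsHermitian, conjTranspose_smul, h.pos.1.inv.eq, T] : ((1 / 2 : ℂ) • T).IsHermitian).sub hU
  have q := trace_sandwich_nonneg hC h.pos.posSemidef
  have e3 : (((1 / 2 : ℂ) • T - U) * X * ((1 / 2 : ℂ) • T - U)).trace
      = T.trace / 4 - U.trace + (c : ℂ) * (X * V).trace + (t : ℂ) * X.trace := by
    have a1 : (U * X * U).trace = (c : ℂ) * (X * V).trace + (t : ℂ) * X.trace := by
      rw [trace_mul_cycle, hU2, Matrix.add_mul, trace_add, Matrix.smul_mul, Matrix.smul_mul,
        trace_smul, trace_smul, one_mul, trace_mul_comm V X, smul_eq_mul, smul_eq_mul]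
    have a2 : T * X * T = T := by rw [hTX, one_mul]
    have a3 : U * X * T = U := by rw [Matrix.mul_assoc, hXT, mul_one]
    have a4 : T * X * U = U := by rw [hTX, one_mul]
    simp only [Matrix.sub_mul, Matrix.mul_sub, Matrix.smul_mul, Matrix.mul_smul, trace_sub,
      trace_smul, a1, a2, a3, a4, smul_eq_mul]
    ring
  rw [e3] at q
  have eA : X * (Λ + (t : ℂ) • 1 - G * G) = X * (Λ - G * G) + (t : ℂ) • X := by
    simp [Matrix.mul_sub, Matrix.mul_add]
    abel
  rw [eA, trace_add, trace_smul] at hm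
  have eV : (X * (Λ - G * G - V)).trace = (X * (Λ - G * G)).trace - (X * V).trace := by
    simp [Matrix.mul_sub, trace_sub]
  rw [eV, trace_sub (Λ - G * G) V]
  simp only [Complex.sub_re, Complex.add_re, Complex.mul_re, Complex.ofReal_re, Complex.ofReal_im,
    smul_eq_mul, zero_mul, sub_zero] at hm q ⊢
  have hT4 : (T.trace / 4).re = Z.trace.im / 2 := by rw [hη]; simp; ring
  rw [hT4] at q
  have hs : 0 < γ - 1 / 2 := by linarith
  have hr := Real.sqrt_pos.2 ht
  have hr2 := Real.sq_sqrt ht.le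
  have q' := mul_nonneg (div_nonneg (show (0 : ℝ) ≤ γ + 1 / 2 by linarith) hs.le) q
  rw [← sub_nonneg] at hm ⊢
  refine le_of_le_of_eq (add_nonneg hm q') ?_
  rw [hc]
  set r := √t
  rw [← hr2]
  obtain ⟨s, rfl⟩ : ∃ s, γ = s + 1 / 2 := ⟨_, (sub_add_cancel γ _).symm⟩
  simp only [add_sub_cancel_right, add_assoc, add_halves] at hs ⊢
  have h3 : s + 1 ≠ 0 := by linarith
  field_simp
  ring

end Vale.Agent.P371.Gamma.Calib
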