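import Vale.Agent.P371.Gamma.Defs
import Vale.Agent.P371.TraceYoung

/-!
P371: the pencil along a flip, and continuity of spectral traces.
-/

open Matrix MeasureTheory Set Filter
open scoped Topology Matrix.Norms.L2Operator ComplexOrder

namespace Vale.Agent.P371.Gamma.Calib

variable {N : ℕ}

/-- `re tr`, as a real continuous linear map. -/
noncomputable def trRe : Mat N →L[ℝ] ℝ :=
  LinearMap.toContinuousLinearMap (Complex.reLm ∘ₗ traceLinearMap (Fin N) ℝ ℂ)

lemma trRe_apply (M : Mat N) : trRe M = M.trace.re := rfl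

/-- `re ⟨v, M v⟩`, as a real continuous linear map. -/
noncomputable def qForm (v : Fin N → ℂ) : Mat N →L[ℝ] ℝ :=
  LinearMap.toContinuousLinearMap
    { toFun := fun M => (star v ⬝ᵥ M *ᵥ v).re
      map_add' := fun A B => by simp [add_mulVec, dotProduct_add]
      map_smul' := fun c A => by simp [smul_mulVec, dotProduct_smul] }

lemma qForm_apply (v : Fin N → ℂ) (M : Mat N) : qForm v M = (star v ⬝ᵥ M *ᵥ v).re := rfl

lemma qForm_sq_le {G : Mat N} (hG : G.IsHermitian) {v : Fin N → ℂ} (hv : v ≠ 0) :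
    qForm v G ^ 2 / (star v ⬝ᵥ v).re ≤ qForm v (G * G) := by
  have hn := (Complex.pos_iff.1 (dotProduct_star_self_pos_iff.2 hv)).1
  set n := (star v ⬝ᵥ v).re
  set l := qForm v G / n with hl
  have e : ∀ w, star (G *ᵥ v) ⬝ᵥ w = star v ⬝ᵥ G *ᵥ w := fun w => by
    rw [star_mulVec, hG.eq, dotProduct_mulVec]
  have h := (Complex.nonneg_iff.1 (dotProduct_star_self_nonneg (G *ᵥ v - (l : ℂ) • v))).1
  simp only [star_sub, star_smul, sub_dotProduct, dotProduct_sub, smul_dotProduct, dotProduct_smul,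
    e, mulVec_mulVec, smul_eq_mul, RCLike.star_def, Complex.conj_ofReal, Complex.sub_re,
    Complex.re_ofReal_mul] at h
  simp only [← qForm_apply] at h
  have : l * n = qForm v G := by rw [hl]; field_simp
  rw [div_le_iff₀ hn]
  nlinarith

lemma riccati_le {f f' : ℝ → ℝ} {a b q n c : ℝ} (hn : 0 < n) (hc : 0 ≤ c) (hcq : q * n ≤ c ^ 2)
    (hf : ∀ x ∈ Icc a b, HasDerivWithinAt f (f' x) (Icc a b) x)
    (hle : ∀ x ∈ Icc a b, f' x ≤ q - f x ^ 2 / n) (ha : f a ≤ c) :
    ∀ x ∈ Icc a b, f x ≤ c := by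
  intro x hx
  refine le_of_forall_pos_le_add fun ε hε => ?_
  refine image_le_of_deriv_right_lt_deriv_boundary (B := fun _ => c + ε) (B' := fun _ => 0)
    (fun y hy => (hf y hy).continuousWithinAt)
    (fun y hy => (hf y (Ico_subset_Icc_self hy)).mono_of_mem_nhdsWithin (Icc_mem_nhdsGE_of_mem hy))
    (by linarith) (fun y => hasDerivAt_const y _) (fun y hy hfy => ?_) hx
  refine (hle y (Ico_subset_Icc_self hy)).trans_lt ?_
  rw [hfy, sub_neg, lt_div_iff₀ hn]
  nlinarith

variable {a b : ℝ} {K : Mat N} {V G : ℝ → Mat N}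

lemma pencilPos_of_flip (hV : ∀ x ∈ Icc a b, (V x).PosSemidef) (h : IsFlip a b K V G) {t : ℝ}
    (ht : 0 < t) : ∀ x ∈ Icc a b, PencilPos (G x) (K * K + (t : ℂ) • 1) := by
  intro x hx
  have hKK : (K * K).IsHermitian := by
    have := h.posDef.1
    simp [IsHermitian, conjTranspose_mul, this.eq]
  refine ⟨h.herm x hx, hKK.add (by simp [IsHermitian, conjTranspose_smul]), fun v hv => ?_⟩
  have hn := (Complex.pos_iff.1 (dotProduct_star_self_pos_iff.2 hv)).1
  set n := (star v ⬝ᵥ v).re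
  set q := qForm v (K * K)
  have hq : qForm v K ^ 2 ≤ q * n := (div_le_iff₀ hn).1 (qForm_sq_le h.posDef.1 hv)
  have hq0 : 0 ≤ q * n := (sq_nonneg _).trans hq
  set c := √(q * n)
  have hc2 : c ^ 2 = q * n := Real.sq_sqrt hq0
  have hKc : qForm v K ≤ c := (le_abs_self _).trans (Real.abs_le_sqrt hq)
  have hd : ∀ y ∈ Icc a b, HasDerivWithinAt (fun y => qForm v (G y))
      (qForm v (K * K - G y * G y - V y)) (Icc a b) y := fun y hy =>
    (qForm v).hasFDerivAt.comp_hasDerivWithinAt y (h.deriv y hy)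
  have hle : ∀ y ∈ Icc a b,
      qForm v (K * K - G y * G y - V y) ≤ q - qForm v (G y) ^ 2 / n := fun y hy => by
    rw [map_sub, map_sub]
    have h1 := qForm_sq_le (h.herm y hy) hv
    have h2 : 0 ≤ qForm v (V y) :=
      (Complex.nonneg_iff.1 ((hV y hy).dotProduct_mulVec_nonneg v)).1
    linarith
  have up := riccati_le hn (Real.sqrt_nonneg _) hc2.ge hd hle (by rw [h.left]; exact hKc) x hx
  have hm : MapsTo (fun y => a + b - y) (Icc a b) (Icc a b) := fun y hy =>
    ⟨by linarith [hy.2], by linarith [hy.1]⟩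
  have hd' : ∀ y ∈ Icc a b, HasDerivWithinAt (fun y => -qForm v (G (a + b - y)))
      (qForm v (K * K - G (a + b - y) * G (a + b - y) - V (a + b - y))) (Icc a b) y := fun y hy => by
    have := ((hd _ (hm hy)).comp y ((hasDerivAt_id y).const_sub (a + b)).hasDerivWithinAt hm).neg
    exact this.congr_deriv (by simp)
  have lo := riccati_le hn (Real.sqrt_nonneg _) hc2.ge hd'
    (fun y hy => by rw [neg_sq]; exact hle _ (hm hy))
    (by rw [add_sub_cancel_left, h.right, map_neg, neg_neg]; exact hKc) (a + b - x) (hm hx)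
  rw [show a + b - (a + b - x) = x by ring] at lo
  have e : (star v ⬝ᵥ (K * K + (t : ℂ) • 1) *ᵥ v).re = q + t * n := by
    simp [add_mulVec, dotProduct_add, smul_mulVec, dotProduct_smul, q, qForm_apply, n]
  rw [e, ← qForm_apply]
  have : qForm v (G x) ^ 2 ≤ q * n := by rw [← hc2]; nlinarith
  nlinarith [mul_pos ht (mul_pos hn hn)]

lemma spectrum_nonneg {A : Mat N} (hA : A.PosSemidef) {v : ℝ} (hv : v ∈ spectrum ℝ A) : 0 ≤ v := by
  rw [hA.1.spectrum_real_eq_range_eigenvalues] at hv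
  obtain ⟨i, rfl⟩ := hv
  exact hA.eigenvalues_nonneg i

/-- The square root of `c V + t`. -/
lemma sqrt_shift {A : Mat N} (hA : A.PosSemidef) {c t : ℝ} (hc : 0 ≤ c) (ht : 0 ≤ t) :
    (cfc Real.sqrt ((c : ℂ) • A + (t : ℂ) • 1)).IsHermitian ∧
    cfc Real.sqrt ((c : ℂ) • A + (t : ℂ) • 1) * cfc Real.sqrt ((c : ℂ) • A + (t : ℂ) • 1)
      = (c : ℂ) • A + (t : ℂ) • 1 ∧
    (cfc Real.sqrt ((c : ℂ) • A + (t : ℂ) • 1)).trace.re
      = ∑ i, √(c * hA.1.eigenvalues i + t) := by
  have hsa : IsSelfAdjoint A := hA.1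
  have e : cfc (fun v : ℝ => c * v + t) A = (c : ℂ) • A + (t : ℂ) • 1 := by
    rw [cfc_add A (fun v => c * v) (fun _ => t), cfc_const_mul_id c A, cfc_const t A,
      Algebra.algebraMap_eq_smul_one, ← Complex.coe_smul, ← Complex.coe_smul]
  have e2 : cfc Real.sqrt ((c : ℂ) • A + (t : ℂ) • 1) = cfc (fun v : ℝ => √(c * v + t)) A := by
    rw [← e, ← cfc_comp' Real.sqrt (fun v : ℝ => c * v + t) A]
  refine ⟨cfc_predicate _ _, ?_, ?_⟩
  · rw [e2, ← cfc_mul (fun v : ℝ => √(c * v + t)) (fun v : ℝ => √(c * v + t)) A, ← e]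
    refine cfc_congr fun v hv => Real.mul_self_sqrt ?_
    have := spectrum_nonneg hA hv
    positivity
  · rw [e2, trace_cfc_re hA.1]

/-- Spectral traces of continuous families are continuous. -/
lemma continuousOn_trace_cfc {X : Type*} [TopologicalSpace X] {S : Set X} (hS : IsCompact S)
    {A : X → Mat N} (hA : ContinuousOn A S) (hh : ∀ x ∈ S, (A x).IsHermitian) {f : ℝ → ℝ}
    (hf : Continuous f) : ContinuousOn (fun x => (cfc f (A x)).trace.re) S := by
  obtain ⟨C, hC⟩ := hS.exists_bound_of_continuousOn hA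
  have hsub : ∀ x ∈ S, spectrum ℝ (A x) ⊆ Icc (-C) C := by
    intro x hx v hv
    rw [(hh x hx).spectrum_real_eq_range_eigenvalues] at hv
    obtain ⟨i, rfl⟩ := hv
    have h1 := spectrum.norm_le_norm_mul_of_mem
      ((hh x hx).eigenvalues_mem_spectrum_real i)
    have h2 : ‖(1 : Mat N)‖ ≤ 1 := by
      rcases subsingleton_or_nontrivial (Mat N) with h | h
      · simp [Subsingleton.elim (1 : Mat N) 0]
      · exact (norm_one (α := Mat N)).le
    have h3 := h1.trans ((mul_le_of_le_one_right (norm_nonneg _) h2).trans (hC x hx))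
    rwa [Real.norm_eq_abs, abs_le] at h3
  have hc := ContinuousOn.cfc' (𝕜 := ℝ) isCompact_Icc f hA hsub (fun x hx => hh x hx)
    hf.continuousOn
  exact trRe.continuous.comp_continuousOn hc

end Vale.Agent.P371.Gamma.Calib
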