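import Vale.Agent.P371.Gamma.Defs

/-!
P371: the one-dimensional integrals of the calibration.
-/

open MeasureTheory Set Filter Real
open scoped Topology

namespace Vale.Agent.P371.Gamma.Calib

/-- The weight `1/(2√t) - 1/(2√(t+v))`. -/
noncomputable def hS (t v : ℝ) : ℝ := 1 / (2 * √t) - 1 / (2 * √(t + v))

/-- Its primitive in `v`: `(√(t+v) - √t)² / (2√t)`. -/
noncomputable def eS (t v : ℝ) : ℝ := (√(t + v) - √t) ^ 2 / (2 * √t)

/-- The endpoint weight `k/√t - arctan (k/√t)`. -/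
noncomputable def psiS (t k : ℝ) : ℝ := k / √t - arctan (k / √t)

/-- The total weight at `v = 1`. -/
noncomputable def hTot (γ : ℝ) : ℝ := ∫ t in Ioi (0 : ℝ), t ^ (γ - 1) * hS t 1

lemma hS_nonneg {t v : ℝ} (ht : 0 < t) (hv : 0 ≤ v) : 0 ≤ hS t v := by
  have h := Real.sqrt_le_sqrt (show t ≤ t + v by linarith)
  have := Real.sqrt_pos.2 ht
  rw [hS, sub_nonneg]; gcongr

lemma hS_le {t : ℝ} (ht : 0 < t) : hS t 1 ≤ 1 / (2 * √t) ∧ hS t 1 ≤ 1 / (4 * t * √t) := by
  have hr := Real.sqrt_pos.2 ht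
  refine ⟨sub_le_self _ (by positivity), ?_⟩
  have hy : √t ≤ √(t + 1) := Real.sqrt_le_sqrt (by linarith)
  have hy0 : 0 < √(t + 1) := hr.trans_le hy
  have hr2 := Real.sq_sqrt ht.le
  have hy2 := Real.sq_sqrt (show 0 ≤ t + 1 by linarith)
  rw [hS, div_sub_div _ _ (by positivity) (by positivity), div_le_div_iff₀ (by positivity) (by positivity)]
  set r := √t
  set y := √(t + 1)
  have h1 : (y - r) * (2 * r) ≤ 1 := by nlinarith
  rw [← hr2]
  nlinarith [mul_le_mul_of_nonneg_left hy (show 0 ≤ r by positivity),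
    mul_le_mul_of_nonneg_left h1 (show 0 ≤ r ^ 2 by positivity),
    mul_nonneg hr.le hy0.le]

lemma integrableOn_hS {γ : ℝ} (h1 : 1 / 2 < γ) (h2 : γ < 3 / 2) :
    IntegrableOn (fun t => t ^ (γ - 1) * hS t 1) (Ioi 0) := by
  have hm : Measurable fun t : ℝ => t ^ (γ - 1) * hS t 1 := by unfold hS; fun_prop
  rw [← Ioc_union_Ioi_eq_Ioi zero_le_one]
  refine IntegrableOn.union ?_ ?_
  · have hi : IntegrableOn (fun t : ℝ => t ^ (γ - 3 / 2)) (Ioc 0 1) :=
      (intervalIntegrable_iff_integrableOn_Ioc_of_le zero_le_one).1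
        (intervalIntegral.intervalIntegrable_rpow' (by linarith))
    refine hi.mono' hm.aestronglyMeasurable
      ((ae_restrict_iff' measurableSet_Ioc).2 (Eventually.of_forall fun t ht => ?_))
    rw [Real.norm_eq_abs, abs_of_nonneg (mul_nonneg (rpow_nonneg ht.1.le _)
      (hS_nonneg ht.1 zero_le_one))]
    calc t ^ (γ - 1) * hS t 1 ≤ t ^ (γ - 1) * (1 / (2 * √t)) :=
          mul_le_mul_of_nonneg_left (hS_le ht.1).1 (rpow_nonneg ht.1.le _)
      _ = t ^ (γ - 3 / 2) / 2 := by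
          have e : t ^ (γ - 3 / 2) = t ^ (γ - 1) / √t := by
            rw [Real.sqrt_eq_rpow, ← rpow_sub ht.1]; ring_nf
          rw [e]
          ring
      _ ≤ _ := by linarith [rpow_nonneg ht.1.le (γ - 3 / 2)]
  · have hi : IntegrableOn (fun t : ℝ => t ^ (γ - 5 / 2)) (Ioi 1) :=
      integrableOn_Ioi_rpow_of_lt (by linarith) one_pos
    refine hi.mono' hm.aestronglyMeasurable
      ((ae_restrict_iff' measurableSet_Ioi).2 (Eventually.of_forall fun t ht => ?_))
    have ht0 : (0 : ℝ) < t := one_pos.trans ht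
    rw [Real.norm_eq_abs, abs_of_nonneg (mul_nonneg (rpow_nonneg ht0.le _)
      (hS_nonneg ht0 zero_le_one))]
    calc t ^ (γ - 1) * hS t 1 ≤ t ^ (γ - 1) * (1 / (4 * t * √t)) :=
          mul_le_mul_of_nonneg_left (hS_le ht0).2 (rpow_nonneg ht0.le _)
      _ = t ^ (γ - 5 / 2) / 4 := by
          have e : t ^ (γ - 5 / 2) = t ^ (γ - 1) / (t * √t) := by
            rw [Real.sqrt_eq_rpow, ← rpow_one_add' ht0.le (by norm_num), ← rpow_sub ht0]; ring_nf
          rw [e]
          ring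
      _ ≤ _ := by linarith [rpow_nonneg ht0.le (γ - 5 / 2)]

lemma continuousOn_w (γ : ℝ) {t₀ T : ℝ} (h : 0 < t₀) :
    ContinuousOn (fun t : ℝ => t ^ (γ - 1)) (Icc t₀ T) :=
  continuousOn_id.rpow_const fun _ ht => Or.inl (h.trans_le ht.1).ne'

lemma hTot_pos {γ : ℝ} (h1 : 1 / 2 < γ) (h2 : γ < 3 / 2) : 0 < hTot γ := by
  have hsub : Ioc (1 : ℝ) 2 ⊆ Ioi 0 := fun t ht => one_pos.trans ht.1
  have hnn : ∀ t ∈ Ioi (0 : ℝ), 0 ≤ t ^ (γ - 1) * hS t 1 := fun t ht =>
    mul_nonneg (rpow_nonneg (le_of_lt ht) _) (hS_nonneg ht zero_le_one)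
  refine lt_of_lt_of_le ?_ (setIntegral_mono_set (integrableOn_hS h1 h2)
    ((ae_restrict_iff' measurableSet_Ioi).2 (Eventually.of_forall hnn)) hsub.eventuallyLE)
  rw [← intervalIntegral.integral_of_le one_le_two]
  refine intervalIntegral.intervalIntegral_pos_of_pos_on ?_ (fun t ht => ?_) one_lt_two
  · refine ContinuousOn.intervalIntegrable_of_Icc one_le_two ((continuousOn_w γ one_pos).mul ?_)
    unfold hS
    exact ((continuousOn_const.div (by fun_prop) fun t ht => by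
      have := Real.sqrt_pos.2 (one_pos.trans_le ht.1); positivity)).sub
      (continuousOn_const.div (by fun_prop) fun t ht => by
        have := Real.sqrt_pos.2 (show 0 < t + 1 by linarith [ht.1]); positivity)
  · have ht0 : (0 : ℝ) < t := by linarith [ht.1]
    have := Real.sqrt_lt_sqrt ht0.le (show t < t + 1 by linarith)
    have := Real.sqrt_pos.2 ht0
    refine mul_pos (rpow_pos_of_pos ht0 _) (sub_pos.2 ?_)
    gcongr

/-- `d/dt (t^γ e) = t^(γ-1) ((γ+1/2) e - v h)`. -/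
lemma hasDerivAt_pow_eS {γ t v : ℝ} (ht : 0 < t) (hv : 0 ≤ v) :
    HasDerivAt (fun u => u ^ γ * eS u v)
      (t ^ (γ - 1) * ((γ + 1 / 2) * eS t v - v * hS t v)) t := by
  have hr := Real.sqrt_pos.2 ht
  have hy := Real.sqrt_pos.2 (show 0 < t + v by linarith)
  have d1 : HasDerivAt (fun u => √u) (1 / (2 * √t)) t := Real.hasDerivAt_sqrt ht.ne'
  have d2 : HasDerivAt (fun u => √(u + v)) (1 / (2 * √(t + v))) t := by
    simpa using ((hasDerivAt_id t).add_const v).sqrt (show t + v ≠ 0 by linarith)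
  have d3 := ((d2.sub d1).pow 2).div (d1.const_mul 2) (by positivity)
  have d := (Real.hasDerivAt_rpow_const (p := γ) (Or.inl ht.ne')).mul d3
  refine d.congr_deriv ?_
  have hp : t ^ γ = t ^ (γ - 1) * t := by rw [← rpow_add_one ht.ne', sub_add_cancel]
  have hr2 := Real.sq_sqrt ht.le
  have hy2 := Real.sq_sqrt (show 0 ≤ t + v by linarith)
  simp only [eS, hS, Pi.sub_apply, Pi.pow_apply, Pi.div_apply, hp]
  have hv' : v = √(t + v) ^ 2 - √t ^ 2 := by rw [hr2, hy2]; ring
  set r := √t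
  set y := √(t + v)
  rw [hv', ← hr2]
  field_simp
  ring

lemma eS_scale {t v : ℝ} (ht : 0 < t) (hv : 0 < v) : eS (v * t) v = √v * eS t 1 := by
  have h1 := Real.sqrt_pos.2 ht
  have h2 := Real.sqrt_pos.2 hv
  rw [eS, eS, show v * t + v = v * (t + 1) by ring, Real.sqrt_mul hv.le, Real.sqrt_mul hv.le]
  field_simp

lemma hS_scale {t v : ℝ} (ht : 0 < t) (hv : 0 < v) : hS (v * t) v = hS t 1 / √v := by
  have h1 := Real.sqrt_pos.2 ht
  have h2 := Real.sqrt_pos.2 hv
  have h3 := Real.sqrt_pos.2 (show 0 < t + 1 by linarith)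
  rw [hS, hS, show v * t + v = v * (t + 1) by ring, Real.sqrt_mul hv.le, Real.sqrt_mul hv.le]
  field_simp

lemma eS_nonneg {t : ℝ} (v : ℝ) : 0 ≤ eS t v := by unfold eS; positivity

lemma continuousOn_eS (v : ℝ) {t₀ T : ℝ} (h : 0 < t₀) :
    ContinuousOn (fun t => eS t v) (Icc t₀ T) :=
  (by fun_prop : Continuous fun t : ℝ => (√(t + v) - √t) ^ 2).continuousOn.div
    (by fun_prop) fun t ht => by have := Real.sqrt_pos.2 (h.trans_le ht.1); positivity

lemma continuousOn_hS {v : ℝ} (hv : 0 ≤ v) {t₀ T : ℝ} (h : 0 < t₀) :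
    ContinuousOn (fun t => hS t v) (Icc t₀ T) :=
  (continuousOn_const.div (by fun_prop) fun t ht => by
      have := Real.sqrt_pos.2 (h.trans_le ht.1); positivity).sub
    (continuousOn_const.div (by fun_prop) fun t ht => by
      have := Real.sqrt_pos.2 (show 0 < t + v by linarith [ht.1]); positivity)

lemma integral_eS_one_le {γ : ℝ} (h1 : 1 / 2 < γ) (h2 : γ < 3 / 2) {t₀ T : ℝ} (h0 : 0 < t₀)
    (hT : t₀ ≤ T) : (γ + 1 / 2) * ∫ t in t₀..T, t ^ (γ - 1) * eS t 1 ≤ hTot γ := by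
  have key : ∀ U, T ≤ U →
      (γ + 1 / 2) * ∫ t in t₀..T, t ^ (γ - 1) * eS t 1 ≤ hTot γ + U ^ (γ - 3 / 2) := by
    intro U hU
    have hU0 : 0 < U := h0.trans_le (hT.trans hU)
    have hTU : t₀ ≤ U := hT.trans hU
    have ce : ContinuousOn (fun t => t ^ (γ - 1) * eS t 1) (Icc t₀ U) :=
      (continuousOn_w γ h0).mul (continuousOn_eS 1 h0)
    have chh : ContinuousOn (fun t => t ^ (γ - 1) * hS t 1) (Icc t₀ U) :=
      (continuousOn_w γ h0).mul (continuousOn_hS zero_le_one h0)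
    have ie := ce.intervalIntegrable_of_Icc hTU (μ := volume)
    have ih := chh.intervalIntegrable_of_Icc hTU (μ := volume)
    have hd := intervalIntegral.integral_eq_sub_of_hasDerivAt
      (f := fun t => t ^ γ * eS t 1)
      (f' := fun t => (γ + 1 / 2) * (t ^ (γ - 1) * eS t 1) - t ^ (γ - 1) * hS t 1)
      (a := t₀) (b := U) (fun t ht => by
        rw [uIcc_of_le hTU] at ht
        exact (hasDerivAt_pow_eS (h0.trans_le ht.1) zero_le_one).congr_deriv (by ring))
      ((ie.const_mul _).sub ih)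
    rw [intervalIntegral.integral_sub (ie.const_mul _) ih, intervalIntegral.integral_const_mul] at hd
    have hmono : ∫ t in t₀..T, t ^ (γ - 1) * eS t 1 ≤ ∫ t in t₀..U, t ^ (γ - 1) * eS t 1 := by
      refine intervalIntegral.integral_mono_interval le_rfl hT hU ?_ ie
      refine (ae_restrict_iff' measurableSet_Ioc).2 (Eventually.of_forall fun t ht => ?_)
      exact mul_nonneg (rpow_nonneg (h0.trans ht.1).le _) (eS_nonneg _)
    have hh : ∫ t in t₀..U, t ^ (γ - 1) * hS t 1 ≤ hTot γ := by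
      rw [intervalIntegral.integral_of_le hTU]
      exact setIntegral_mono_set (integrableOn_hS h1 h2)
        ((ae_restrict_iff' measurableSet_Ioi).2 (Eventually.of_forall fun t ht =>
          mul_nonneg (rpow_nonneg (le_of_lt ht) _) (hS_nonneg ht zero_le_one)))
        (show Ioc t₀ U ⊆ Ioi (0 : ℝ) from fun t ht => h0.trans ht.1).eventuallyLE
    have hUe : U ^ γ * eS U 1 ≤ U ^ (γ - 3 / 2) := by
      have hr := Real.sqrt_pos.2 hU0
      have hy : √U ≤ √(U + 1) := Real.sqrt_le_sqrt (by linarith)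
      have hr2 := Real.sq_sqrt hU0.le
      have hy2 := Real.sq_sqrt (show 0 ≤ U + 1 by linarith)
      have e1 : eS U 1 ≤ 1 / (U * √U) := by
        rw [eS, div_le_div_iff₀ (by positivity) (by positivity)]
        set r := √U
        set y := √(U + 1)
        have h3 : (y - r) * (2 * r) ≤ 1 := by nlinarith
        rw [← hr2]
        nlinarith [mul_le_mul h3 h3 (by nlinarith) zero_le_one]
      refine (mul_le_mul_of_nonneg_left e1 (rpow_nonneg hU0.le _)).trans_eq ?_
      rw [Real.sqrt_eq_rpow, rpow_sub hU0, show (3 / 2 : ℝ) = 1 + 1 / 2 by norm_num, rpow_add hU0,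
        rpow_one]
      ring
    have h3 : (0 : ℝ) ≤ t₀ ^ γ * eS t₀ 1 := mul_nonneg (rpow_nonneg h0.le _) (eS_nonneg _)
    have := mul_le_mul_of_nonneg_left hmono (show (0 : ℝ) ≤ γ + 1 / 2 by linarith)
    linarith
  have hlim : Tendsto (fun U : ℝ => hTot γ + U ^ (γ - 3 / 2)) atTop (𝓝 (hTot γ)) := by
    have := tendsto_rpow_neg_atTop (show 0 < 3 / 2 - γ by linarith)
    simpa [neg_sub] using this.const_add (hTot γ)
  exact ge_of_tendsto hlim ((eventually_ge_atTop T).mono key)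

lemma integral_eS_le {γ : ℝ} (h1 : 1 / 2 < γ) (h2 : γ < 3 / 2) {t₀ T v : ℝ} (h0 : 0 < t₀)
    (hT : t₀ ≤ T) (hv : 0 ≤ v) :
    ∫ t in t₀..T, t ^ (γ - 1) * eS t v ≤ v ^ (γ + 1 / 2) * (hTot γ / (γ + 1 / 2)) := by
  rcases hv.eq_or_lt with rfl | hv'
  · rw [zero_rpow (show γ + 1 / 2 ≠ 0 by linarith)]; simp [eS]
  have hsub := intervalIntegral.mul_integral_comp_mul_left (a := t₀ / v) (b := T / v)
    (f := fun t => t ^ (γ - 1) * eS t v) v
  rw [mul_div_cancel₀ _ hv'.ne', mul_div_cancel₀ _ hv'.ne'] at hsub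
  have hval : ∫ t in t₀ / v..T / v, (v * t) ^ (γ - 1) * eS (v * t) v
      = v ^ (γ - 1) * √v * ∫ t in t₀ / v..T / v, t ^ (γ - 1) * eS t 1 := by
    rw [← intervalIntegral.integral_const_mul]
    refine intervalIntegral.integral_congr fun t ht => ?_
    rw [uIcc_of_le (by gcongr)] at ht
    have ht0 : 0 < t := (div_pos h0 hv').trans_le ht.1
    simp only [eS_scale ht0 hv', mul_rpow hv'.le ht0.le]
    ring
  rw [← hsub, hval, ← mul_assoc]
  have hc : v * (v ^ (γ - 1) * √v) = v ^ (γ + 1 / 2) := by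
    rw [Real.sqrt_eq_rpow, ← mul_assoc, ← rpow_one_add' hv'.le (by linarith), ← rpow_add hv']
    ring_nf
  rw [hc]
  refine mul_le_mul_of_nonneg_left ?_ (rpow_nonneg hv'.le _)
  rw [le_div_iff₀' (by linarith)]
  exact integral_eS_one_le h1 h2 (div_pos h0 hv') (by gcongr)

lemma solInt_pos {γ : ℝ} (h1 : 1 / 2 < γ) : 0 < solInt γ := by
  refine intervalIntegral.intervalIntegral_pos_of_pos_on ?_ (fun f hf => ?_) (by norm_num)
  · exact ((by fun_prop : Continuous fun f : ℝ => 1 - f ^ 2).rpow_const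
      fun f => Or.inr (by linarith)).intervalIntegrable _ _
  · exact rpow_pos_of_pos (by nlinarith [hf.1, hf.2]) _

lemma psiS_eq {t : ℝ} (ht : 0 < t) :
    psiS t 1 = ∫ f in (-1 : ℝ)..1, hS t (1 - f ^ 2) := by
  set c := √(t + 1) with hc
  have hc0 : 0 < c := Real.sqrt_pos.2 (by linarith)
  have hc2 : c ^ 2 = t + 1 := Real.sq_sqrt (by linarith)
  have hr := Real.sqrt_pos.2 ht
  have hd : ∀ f ∈ uIcc (-1 : ℝ) 1, HasDerivAt (fun f => f / (2 * √t) - arcsin (f / c) / 2)
      (hS t (1 - f ^ 2)) f := by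
    intro f hf
    rw [uIcc_of_le (by norm_num)] at hf
    have hlt : -1 < f / c ∧ f / c < 1 := by
      have : 1 < c := by nlinarith
      constructor
      · rw [lt_div_iff₀ hc0]; linarith [hf.1]
      · rw [div_lt_one hc0]; linarith [hf.2]
    have d1 := (hasDerivAt_arcsin hlt.1.ne' hlt.2.ne).comp f ((hasDerivAt_id f).div_const c)
    refine (((hasDerivAt_id f).div_const (2 * √t)).sub (d1.div_const 2)).congr_deriv ?_
    have e : √(t + (1 - f ^ 2)) = c * √(1 - (f / c) ^ 2) := by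
      rw [show c * √(1 - (f / c) ^ 2) = √(c ^ 2) * √(1 - (f / c) ^ 2) by rw [Real.sqrt_sq hc0.le],
        ← Real.sqrt_mul (sq_nonneg c)]
      congr 1
      field_simp
      linarith
    have : 0 < √(1 - (f / c) ^ 2) := Real.sqrt_pos.2 (by nlinarith [hlt.1, hlt.2])
    rw [hS, e]
    field_simp
  have hcont : ContinuousOn (fun f => hS t (1 - f ^ 2)) (uIcc (-1 : ℝ) 1) := by
    rw [uIcc_of_le (by norm_num)]
    exact continuousOn_const.sub (continuousOn_const.div (by fun_prop) fun f hf => by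
      have := Real.sqrt_pos.2 (show 0 < t + (1 - f ^ 2) by nlinarith [hf.1, hf.2]); positivity)
  rw [intervalIntegral.integral_eq_sub_of_hasDerivAt hd (hcont.intervalIntegrable), psiS,
    neg_div, neg_div, arcsin_neg, arctan_eq_arcsin]
  have e : 1 / √t / √(1 + (1 / √t) ^ 2) = 1 / c := by
    rw [div_div, hc, one_div_pow, Real.sq_sqrt ht.le,
      ← Real.sqrt_mul ht.le, mul_add, mul_one, mul_one_div_cancel ht.ne']
  rw [e]
  ring

lemma exists_psiS_one {γ : ℝ} (h1 : 1 / 2 < γ) (h2 : γ < 3 / 2) :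
    Tendsto (fun n : ℕ => ∫ t in ((n : ℝ) + 1)⁻¹..(n + 1), t ^ (γ - 1) * psiS t 1) atTop
      (𝓝 (solInt γ * hTot γ)) := by
  have hpos : ∀ n : ℕ, (0 : ℝ) < ((n : ℝ) + 1)⁻¹ := fun n => by positivity
  have hle : ∀ n : ℕ, ((n : ℝ) + 1)⁻¹ ≤ (n : ℝ) + 1 := fun n =>
    (inv_le_one_of_one_le₀ (by linarith [n.cast_nonneg (α := ℝ)])).trans
      (by linarith [n.cast_nonneg (α := ℝ)])
  set F : ℕ → ℝ → ℝ := fun n f =>
    ∫ t in ((n : ℝ) + 1)⁻¹..(n + 1), t ^ (γ - 1) * hS t (1 - f ^ 2) with hF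
  have hjoint : ∀ n : ℕ, ContinuousOn (fun q : ℝ × ℝ => q.2 ^ (γ - 1) * hS q.2 (1 - q.1 ^ 2))
      (Icc (-1 : ℝ) 1 ×ˢ Icc ((n : ℝ) + 1)⁻¹ (n + 1)) := fun n => by
    refine (continuousOn_snd.rpow_const fun q hq => Or.inl ((hpos n).trans_le hq.2.1).ne').mul
      ((continuousOn_const.div (by fun_prop) fun q hq => ?_).sub
        (continuousOn_const.div (by fun_prop) fun q hq => ?_))
    · have := Real.sqrt_pos.2 ((hpos n).trans_le hq.2.1); positivity
    · have := Real.sqrt_pos.2 (show 0 < q.2 + (1 - q.1 ^ 2) by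
        nlinarith [hq.1.1, hq.1.2, (hpos n).trans_le hq.2.1])
      positivity
  have hswap : ∀ n : ℕ, ∫ t in ((n : ℝ) + 1)⁻¹..(n + 1), t ^ (γ - 1) * psiS t 1
      = ∫ f in (-1 : ℝ)..1, F n f := by
    intro n
    have e : ∀ t ∈ uIcc ((n : ℝ) + 1)⁻¹ (n + 1), t ^ (γ - 1) * psiS t 1
        = ∫ f in (-1 : ℝ)..1, t ^ (γ - 1) * hS t (1 - f ^ 2) := fun t ht => by
      rw [uIcc_of_le (hle n)] at ht
      rw [psiS_eq ((hpos n).trans_le ht.1), intervalIntegral.integral_const_mul]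
    rw [intervalIntegral.integral_congr e, hF]
    refine (intervalIntegral_intervalIntegral_swap ?_).symm
    rw [uIoc_of_le (by norm_num), uIoc_of_le (hle n)]
    exact ((hjoint n).integrableOn_compact (isCompact_Icc.prod isCompact_Icc)).mono_set
      (prod_mono Ioc_subset_Icc_self Ioc_subset_Icc_self)
  simp only [hswap]
  have hlimit : solInt γ * hTot γ = ∫ f in (-1 : ℝ)..1, (1 - f ^ 2) ^ (γ - 1 / 2) * hTot γ := by
    rw [intervalIntegral.integral_mul_const, solInt]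
  rw [hlimit]
  have hscale : ∀ (n : ℕ) (a : ℝ), 0 < a → ∫ t in ((n : ℝ) + 1)⁻¹..(n + 1), t ^ (γ - 1) * hS t a
      = a ^ (γ - 1 / 2) * ∫ t in ((n : ℝ) + 1)⁻¹ / a..(n + 1) / a, t ^ (γ - 1) * hS t 1 := by
    intro n a ha
    have hsub := intervalIntegral.mul_integral_comp_mul_left
      (a := ((n : ℝ) + 1)⁻¹ / a) (b := ((n : ℝ) + 1) / a)
      (f := fun t => t ^ (γ - 1) * hS t a) a
    rw [mul_div_cancel₀ _ ha.ne', mul_div_cancel₀ _ ha.ne'] at hsub
    rw [← hsub, ← intervalIntegral.integral_const_mul, ← intervalIntegral.integral_const_mul]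
    refine intervalIntegral.integral_congr fun t ht => ?_
    rw [uIcc_of_le (div_le_div_of_nonneg_right (hle n) ha.le)] at ht
    have ht0 : 0 < t := (div_pos (hpos n) ha).trans_le ht.1
    simp only [hS_scale ht0 ha, mul_rpow ha.le ht0.le]
    have e : a ^ (γ - 1 / 2) = a * a ^ (γ - 1) / √a := by
      rw [Real.sqrt_eq_rpow, ← rpow_one_add' ha.le (by linarith), ← rpow_sub ha]; ring_nf
    rw [e]
    ring
  refine intervalIntegral.tendsto_integral_filter_of_dominated_convergence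
    (fun f => (1 - f ^ 2) ^ (γ - 1 / 2) * hTot γ) (Eventually.of_forall fun n => ?_)
    (Eventually.of_forall fun n => ?_) ?_ ?_
  · rw [uIoc_of_le (by norm_num)]
    have hi : IntegrableOn (fun q : ℝ × ℝ => q.2 ^ (γ - 1) * hS q.2 (1 - q.1 ^ 2))
        (Ioc (-1 : ℝ) 1 ×ˢ Ioc ((n : ℝ) + 1)⁻¹ (n + 1)) :=
      ((hjoint n).integrableOn_compact (isCompact_Icc.prod isCompact_Icc)).mono_set
        (prod_mono Ioc_subset_Icc_self Ioc_subset_Icc_self)
    rw [IntegrableOn, Measure.volume_eq_prod, ← Measure.prod_restrict] at hi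
    refine hi.integral_prod_left.aestronglyMeasurable.congr (Eventually.of_forall fun f => ?_)
    simp only [hF]
    rw [intervalIntegral.integral_of_le (hle n)]
  · refine Eventually.of_forall fun f hf => ?_
    rw [uIoc_of_le (by norm_num)] at hf
    have ha : 0 ≤ 1 - f ^ 2 := by nlinarith [hf.1, hf.2]
    rw [Real.norm_eq_abs, abs_of_nonneg (intervalIntegral.integral_nonneg (hle n) fun t ht =>
      mul_nonneg (rpow_nonneg ((hpos n).trans_le ht.1).le _) (hS_nonneg ((hpos n).trans_le ht.1) ha))]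
    rcases ha.eq_or_lt with h0 | h0
    · rw [← h0, zero_rpow (show γ - 1 / 2 ≠ 0 by linarith)]; simp [hS]
    · rw [hscale n _ h0, intervalIntegral.integral_of_le (div_le_div_of_nonneg_right (hle n) h0.le)]
      refine mul_le_mul_of_nonneg_left (setIntegral_mono_set (integrableOn_hS h1 h2) ?_ ?_)
        (rpow_nonneg ha _)
      · exact (ae_restrict_iff' measurableSet_Ioi).2 (Eventually.of_forall fun t ht =>
          mul_nonneg (rpow_nonneg (le_of_lt ht) _) (hS_nonneg ht zero_le_one))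
      · exact (show Ioc (((n : ℝ) + 1)⁻¹ / (1 - f ^ 2)) ((n + 1) / (1 - f ^ 2)) ⊆ Ioi (0 : ℝ) from
          fun t ht => (div_pos (hpos n) h0).trans ht.1).eventuallyLE
  · exact (((by fun_prop : Continuous fun f : ℝ => 1 - f ^ 2).rpow_const
      fun f => Or.inr (by linarith)).mul continuous_const).intervalIntegrable _ _
  · refine Eventually.of_forall fun f hf => ?_
    rw [uIoc_of_le (by norm_num)] at hf
    have ha : 0 ≤ 1 - f ^ 2 := by nlinarith [hf.1, hf.2]
    rcases ha.eq_or_lt with h0 | h0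
    · simp only [hF, ← h0, hS]; rw [zero_rpow (show γ - 1 / 2 ≠ 0 by linarith)]; simp
    simp only [hF, hscale _ _ h0]
    refine Tendsto.const_mul _ ?_
    have hA : Tendsto (fun n : ℕ => ((n : ℝ) + 1)⁻¹ / (1 - f ^ 2)) atTop (𝓝 0) := by
      simpa using (tendsto_one_div_add_atTop_nhds_zero_nat (𝕜 := ℝ)).div_const (1 - f ^ 2)
    have hB : Tendsto (fun n : ℕ => ((n : ℝ) + 1) / (1 - f ^ 2)) atTop atTop :=
      (tendsto_atTop_add_const_right _ 1 tendsto_natCast_atTop_atTop).atTop_div_const h0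
    have hg := integrableOn_hS h1 h2
    have hii : ∀ c : ℝ, 0 ≤ c →
        IntervalIntegrable (fun t => t ^ (γ - 1) * hS t 1) volume 0 c := fun c hc =>
      (intervalIntegrable_iff_integrableOn_Ioc_of_le hc).2 (hg.mono_set Ioc_subset_Ioi_self)
    have l1 := intervalIntegral_tendsto_integral_Ioi 0 hg hB
    have l2 : Tendsto (fun n : ℕ => ∫ t in (0 : ℝ)..((n : ℝ) + 1)⁻¹ / (1 - f ^ 2),
        t ^ (γ - 1) * hS t 1) atTop (𝓝 0) := by
      have hc := intervalIntegral.continuousOn_primitive_interval'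
        (hii ((1 - f ^ 2)⁻¹) (by positivity)) left_mem_uIcc
      have h00 := (hc 0 left_mem_uIcc).tendsto
      rw [intervalIntegral.integral_same] at h00
      refine h00.comp (tendsto_nhdsWithin_iff.2 ⟨hA, Eventually.of_forall fun n => ?_⟩)
      rw [uIcc_of_le (by positivity)]
      refine ⟨by positivity, ?_⟩
      rw [div_eq_mul_inv]
      exact mul_le_of_le_one_left (by positivity)
        (inv_le_one_of_one_le₀ (by linarith [n.cast_nonneg (α := ℝ)]))
    have l3 := l1.sub l2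
    rw [sub_zero] at l3
    refine l3.congr fun n => ?_
    exact intervalIntegral.integral_interval_sub_left (hii _ (by positivity)) (hii _ (by positivity))

/-- The endpoint integral at level `k`. -/
lemma tendsto_psiS {γ : ℝ} (h1 : 1 / 2 < γ) (h2 : γ < 3 / 2) {k : ℝ} (hk : 0 < k) :
    Tendsto (fun n : ℕ => ∫ t in k ^ 2 * ((n : ℝ) + 1)⁻¹..k ^ 2 * (n + 1),
      t ^ (γ - 1) * psiS t k) atTop (𝓝 (k ^ (2 * γ) * (solInt γ * hTot γ))) := by
  refine ((exists_psiS_one h1 h2).const_mul _).congr fun n => ?_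
  have hk2 : 0 < k ^ 2 := by positivity
  rw [← intervalIntegral.mul_integral_comp_mul_left (c := k ^ 2), ←
    intervalIntegral.integral_const_mul, ← intervalIntegral.integral_const_mul]
  refine intervalIntegral.integral_congr fun t ht => ?_
  have hn : (0 : ℝ) ≤ n := n.cast_nonneg
  rw [uIcc_of_le ((inv_le_one_of_one_le₀ (by linarith)).trans (by linarith))] at ht
  have ht0 : 0 < t := (show (0 : ℝ) < ((n : ℝ) + 1)⁻¹ by positivity).trans_le ht.1
  have e : k / √(k ^ 2 * t) = 1 / √t := by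
    rw [Real.sqrt_mul hk2.le, Real.sqrt_sq hk.le]; field_simp
  simp only [psiS, e, mul_rpow hk2.le ht0.le]
  have e2 : k ^ (2 * γ) = k ^ 2 * (k ^ 2) ^ (γ - 1) := by
    rw [← rpow_two, ← rpow_mul hk.le, ← rpow_add hk]; ring_nf
  rw [e2]
  ring

end Vale.Agent.P371.Gamma.Calib
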